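import Vale.Agent.P011UGA.IF3
import Vale.Agent.P011UGA.Spr
import Vale.Agent.P011UGR1.Sub
import Vale.Agent.P011UTS.Zar
import Vale.Agent.P011UC.Main

/-!
From the Levi subgroup to the rational points of its derived group.
-/

set_option autoImplicit false
set_option linter.all false

namespace Vale.Agent.P011UBP

open Matrix Vale.Agent.P011L Vale.Agent.P183CH Vale.Agent.P183CH.Chev Vale.Agent.P011U
  Vale.Agent.P011UGA Vale.Agent.P011UGR1 Vale.Agent.P011UTS Vale.Agent.P011UH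

theorem comm_of {G : Type} [Group G] {a b c : G} (h1 : Commute (a * b * a⁻¹ * b⁻¹) b)
    (h2 : Commute (a * b * a⁻¹ * b⁻¹) (a * c * a⁻¹)) (h3 : Commute (a * c * a⁻¹ * c⁻¹) b)
    (h4 : Commute (a * c * a⁻¹ * c⁻¹) c) : Commute a (b * c * b⁻¹ * c⁻¹) := by
  obtain ⟨y, hy⟩ : ∃ y, a * b * a⁻¹ * b⁻¹ = y := ⟨_, rfl⟩
  obtain ⟨z, hz⟩ : ∃ z, a * c * a⁻¹ * c⁻¹ = z := ⟨_, rfl⟩
  have e1 : a * b * a⁻¹ = y * b := by rw [← hy]; group
  have e2 : a * c * a⁻¹ = z * c := by rw [← hz]; group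
  rw [hy] at h1 h2
  rw [hz] at h3 h4
  have e3 : a * (b * c * b⁻¹ * c⁻¹) * a⁻¹ =
      (a * b * a⁻¹) * (a * c * a⁻¹) * (a * b * a⁻¹)⁻¹ * (a * c * a⁻¹)⁻¹ := by group
  have e4 : y * (b * (z * c) * b⁻¹) * y⁻¹ = b * (z * c) * b⁻¹ := by
    rw [e2] at h2
    rw [((h1.mul_right h2).mul_right h1.inv_right).eq, mul_inv_cancel_right]
  have e5 : z * (b * c * b⁻¹ * c⁻¹) * z⁻¹ = b * c * b⁻¹ * c⁻¹ := by
    rw [(((h3.mul_right h4).mul_right h3.inv_right).mul_right h4.inv_right).eq,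
      mul_inv_cancel_right]
  refine mul_inv_eq_iff_eq_mul.1 ?_
  rw [e3, e1, e2, ← e5, show y * b * (z * c) * (y * b)⁻¹ = y * (b * (z * c) * b⁻¹) * y⁻¹ by group,
    e4, ← mul_assoc b z, ← h3.eq]
  group

theorem psh : PSH := by
  classical
  intro k K _ _ _ _ _ D hD T ε π d o _ J h0 hc hJ N hN hz
  haveI : Infinite K := .of_injective _ (algebraMap k K).injective
  have hΓ : (GG D K).Ok := GG_ok
  have hR := R_ok D
  obtain ⟨m, ι, rfl⟩ : ∃ (m : ℕ) (ι : Fin m ↪ Fin D.r), Set.range ι = J :=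
    ⟨_, (J.toFinset.orderEmbOfFin rfl).toEmbedding,
      (J.toFinset.range_orderEmbOfFin rfl).trans (Set.coe_toFinset J)⟩
  have h := sub_simple (D := D) (ι := ι) (Fin.pos h0.choose_spec.choose) fun P i j hi hs => by
    obtain ⟨j', e, h⟩ := hc (fun a => ∃ i, ι i = a ∧ P i) _ ⟨i, rfl⟩ _ ⟨j, rfl⟩ ⟨i, rfl, hi⟩ (by
      rintro _ - _ ⟨j, rfl⟩ ⟨i, rfl, h1⟩ h2
      exact ⟨j, rfl, hs i j h1 h2⟩)
    exact ι.injective e ▸ h
  obtain ⟨T', π', -, -, h2, -⟩ := exists_sub h o hJ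
  by_contra hn
  push Not at hn
  refine hz fun a ha hg b hb => ?_
  have ext : ∀ u v : D.grp K → D.grp K, Ent (PF (subD D ι h) K) (fun g => (u (inc K h g)).1.1) →
      Ent (PF (subD D ι h) K) (fun g => (v (inc K h g)).1.1) →
      (∀ g ∈ FJ T (Set.range ι), u g = v g) → ∀ g ∈ LJ (GG D K) (Set.range ι), u g = v g :=
    fun u v hu hv e g hg => by
      obtain ⟨g, rfl⟩ := inc_surj h hg
      refine Subtype.ext (Units.ext (Matrix.ext fun i j => sub_eq_zero.1 ?_))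
      obtain ⟨p, hp⟩ := pf_spec (sub_mem (hu i j) (hv i j))
      refine (hp g).trans (P011UC.den0 k K _ (subD_sc h hD) T' p (fun x hx =>
        (hp x).symm.trans (sub_eq_zero.2 ?_)) g)
      exact congrArg (fun y : D.grp K => y.1.1 i j)
        (e _ ⟨fun σ => (h2 σ x).symm.trans (congrArg _ (hx σ)), inc_mem h x⟩)
  have p1 : Ent (PF (subD D ι h) K) fun g => (inc K h g).1.1 := pf_id
  have p2 : Ent (PF (subD D ι h) K) fun g => (inc K h g)⁻¹.1.1 := pf_inv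
  have k1 : ∀ x ∈ LJ (GG D K) (Set.range ι), ∀ c ∈ LJ (GG D K) (Set.range ι),
      Commute (a * c * a⁻¹ * c⁻¹) x := fun x hx => by
    have p3 := ((((ent_const a.1.1).mul p1).mul (ent_const a⁻¹.1.1)).mul p2)
    refine ext (fun c => a * c * a⁻¹ * c⁻¹ * x) (fun c => x * (a * c * a⁻¹ * c⁻¹))
      (p3.mul (ent_const x.1.1)) ((ent_const x.1.1).mul p3) fun c hc => ?_
    have m : a * c * a⁻¹ * c⁻¹ ∈ N ⊓ FJ T (Set.range ι) := by
      have m1 : a * c * a⁻¹ * c⁻¹ ∈ N := by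
        have := mul_mem ha (hN.2 c hc.1 _ (inv_mem ha))
        rwa [← mul_assoc, ← mul_assoc] at this
      exact ⟨m1, hN.1 m1,
        Subgroup.mul_mem _ (nm_LJ hΓ _ hg hc.2) (Subgroup.inv_mem _ hc.2)⟩
    exact ext (fun x => a * c * a⁻¹ * c⁻¹ * x) (fun x => x * (a * c * a⁻¹ * c⁻¹))
      ((ent_const (a * c * a⁻¹ * c⁻¹).1.1).mul p1) (p1.mul (ent_const (a * c * a⁻¹ * c⁻¹).1.1))
      (hn _ m) x hx
  have k2 : ∀ j ∈ Set.range ι, ∀ γ ∈ D.R.Φ, D.R.In (Set.range ι) γ → D.R.pr γ j ≠ 0 → ∀ u,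
      Commute a ((GG D K).x γ u) := fun j hj γ hγ h3 h4 u => by
    obtain ⟨t, ht⟩ := not_forall.1 fun e => h4 (P011UB.zpow_eq (k := K) e)
    have h5 : ((t ^ D.R.pr γ j : Kˣ) : K) - 1 ≠ 0 := sub_ne_zero.2 fun e => ht (Units.ext e)
    have xe := fun s => RG.x_mem (Γ := GG D K) (S := {γ | D.R.In (Set.range ι) γ}) (hR.simple j)
      (RS.In_α hj) s
    have xf := fun s => RG.x_mem (Γ := GG D K) (S := {γ | D.R.In (Set.range ι) γ})
      (hR.neg_mem (hR.simple j)) (RS.In_α hj).neg s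
    have h6 : (GG D K).h j t ∈ LJ (GG D K) (Set.range ι) := by
      rw [eq_mul_inv_of_mul_eq (hΓ.sl j t).symm]
      exact mul_mem (mul_mem (mul_mem (xe _) (xf _)) (xe _))
        (inv_mem (mul_mem (mul_mem (xe _) (xf _)) (xe _)))
    have h7 : (GG D K).x γ (u / (((t ^ D.R.pr γ j : Kˣ) : K) - 1)) ∈ LJ (GG D K) (Set.range ι) :=
      RG.x_mem hγ h3 _
    have := comm_of (k1 _ h6 _ h6) (k1 _ (nm_LJ hΓ _ hg h7) _ h6) (k1 _ h6 _ h7) (k1 _ h7 _ h7)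
    rwa [hΓ.hx j t γ hγ, ← hΓ.x_neg hγ, ← hΓ.add γ hγ, ← sub_eq_add_neg, ← sub_one_mul,
      mul_div_cancel₀ _ h5] at this
  rw [LJ_eq hR hΓ] at hb
  refine (Subgroup.closure_le (Subgroup.centralizer {a})).2 ?_ hb a rfl
  rintro _ ⟨j, hj, t, rfl | rfl⟩ _ rfl
  · exact k2 j hj _ (hR.simple j) (RS.In_α hj) (by rw [RS.pr_α, hR.diag]; decide) t
  · exact k2 j hj _ (hR.neg_mem (hR.simple j)) (RS.In_α hj).neg
      (by rw [RS.pr_neg, RS.pr_α, hR.diag]; decide) t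

end Vale.Agent.P011UBP
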